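/-
Row 158, conditional chain, part 2:  `CruxGen → Crux`.
It is enough to solve the equation over the subgroup `A₀` generated by its coefficients:
if `B₀ ⊇ A₀` contains a solution, the amalgam `A *_{A₀} B₀` contains `A` and the solution
(Mathlib: `Monoid.PushoutI.of_injective`).
-/
import Claimed.Agent.R158.Crux

set_option autoImplicit false

namespace Claimed.Agent.R158

universe u v

/-- the two factors of the amalgam. -/
def GG (A B : Type u) : Bool → Type u
  | true => A
  | false => B

instance instGroupGG (A B : Type u) [Group A] [Group B] : ∀ i, Group (GG A B i)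
  | true => inferInstanceAs (Group A)
  | false => inferInstanceAs (Group B)

/-- the two maps of the amalgam. -/
def PHI {H A B : Type u} [Group H] [Group A] [Group B] (f : H →* A) (g : H →* B) :
    ∀ i, H →* GG A B i
  | true => f
  | false => g

theorem evalW_map {A₀ : Type u} {A : Type u} {B : Type v} [Group A₀] [Group A] [Group B]
    (ι : A₀ →* A) (F : A →* B) (t : B) (l : List (A₀ × Bool)) :
    evalW F t (l.map (Prod.map ι id)) = evalW (F.comp ι) t l := by
  induction l with
  | nil => simp [evalW]
  | cons p l ih => simp [evalW, ih]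

theorem expS_map {A₀ : Type u} {A : Type u} (ι : A₀ → A) (l : List (A₀ × Bool)) :
    expS (l.map (Prod.map ι id)) = expS l := by
  induction l with
  | nil => simp [expS]
  | cons p l ih => simp [expS, ih]

/-- existence of the amalgam (Mathlib's `Monoid.PushoutI`), in a form without dependent types. -/
theorem exists_amalgam {H A B : Type u} [Group H] [Group A] [Group B] (f : H →* A) (g : H →* B)
    (hf : Function.Injective f) (hg : Function.Injective g) :
    ∃ (P : Type u) (_ : Group P) (jA : A →* P) (jB : B →* P),
      Function.Injective jA ∧ jA.comp f = jB.comp g := by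
  have hφ : ∀ i, Function.Injective (PHI f g i) := by
    intro i
    cases i
    · exact hg
    · exact hf
  let oA : GG A B true →* Monoid.PushoutI (PHI f g) := Monoid.PushoutI.of (φ := PHI f g) true
  let oB : GG A B false →* Monoid.PushoutI (PHI f g) := Monoid.PushoutI.of (φ := PHI f g) false
  let jA : A →* Monoid.PushoutI (PHI f g) :=
    { toFun := fun a => oA a
      map_one' := map_one oA
      map_mul' := fun x y => map_mul oA x y }
  let jB : B →* Monoid.PushoutI (PHI f g) :=
    { toFun := fun a => oB a
      map_one' := map_one oB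
      map_mul' := fun x y => map_mul oB x y }
  refine ⟨Monoid.PushoutI (PHI f g), inferInstance, jA, jB, ?_, ?_⟩
  · intro x y hxy
    exact Monoid.PushoutI.of_injective hφ true hxy
  · ext x
    have e1 := Monoid.PushoutI.of_apply_eq_base (PHI f g) true x
    have e2 := Monoid.PushoutI.of_apply_eq_base (PHI f g) false x
    exact e1.trans e2.symm

/-- amalgamation step. -/
theorem solution_of_subgroup {A : Type u} [Group A] (A₀ : Subgroup A) (l₀ : List (A₀ × Bool))
    (h : ∃ (B : Type u) (_ : Group B) (f : A₀ →* B) (t : B),
      Function.Injective f ∧ evalW f t l₀ = 1) :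
    ∃ (B : Type u) (_ : Group B) (f : A →* B) (t : B),
      Function.Injective f ∧ evalW f t (l₀.map (Prod.map A₀.subtype id)) = 1 := by
  obtain ⟨B₀, _, f₀, t₀, hf₀, ht₀⟩ := h
  obtain ⟨P, _, jA, jB, hj, hcomp⟩ := exists_amalgam A₀.subtype f₀ A₀.subtype_injective hf₀
  refine ⟨P, inferInstance, jA, jB t₀, hj, ?_⟩
  rw [evalW_map, hcomp, ← map_evalW, ht₀, map_one]

theorem crux_of_gen (h : CruxGen.{u}) : Crux.{u} := by
  intro A _ l hl
  set S : Set A := {a : A | ∃ p ∈ l, p.1 = a} with hS
  let A₀ : Subgroup A := Subgroup.closure S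
  let l₀ : List (A₀ × Bool) :=
    l.attach.map (fun p => (⟨p.1.1, Subgroup.subset_closure ⟨p.1, p.2, rfl⟩⟩, p.1.2))
  have hmap : l₀.map (Prod.map A₀.subtype id) = l := by
    simp only [l₀, List.map_map]
    conv_rhs => rw [← List.attach_map_subtype_val l]
    apply List.map_congr_left
    intro p _
    rfl
  have hexp : expS l₀ = 1 := by
    rw [← expS_map A₀.subtype l₀]
    have : l₀.map (Prod.map (⇑A₀.subtype) id) = l := hmap
    rw [this, hl]
  have hgen : Subgroup.closure {a : A₀ | ∃ p ∈ l₀, p.1 = a} = ⊤ := by
    have : {a : A₀ | ∃ p ∈ l₀, p.1 = a} = ((↑) ⁻¹' S : Set (Subgroup.closure S)) := by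
      ext a
      constructor
      · rintro ⟨p, hp, rfl⟩
        simp only [l₀, List.mem_map, List.mem_attach, true_and] at hp
        obtain ⟨q, rfl⟩ := hp
        exact ⟨q.1, q.2, rfl⟩
      · rintro ⟨p, hp, hpa⟩
        refine ⟨(a, p.2), ?_, rfl⟩
        simp only [l₀, List.mem_map, List.mem_attach, true_and]
        refine ⟨⟨p, hp⟩, ?_⟩
        ext
        · exact hpa
        · rfl
    rw [this]
    exact Subgroup.closure_closure_coe_preimage
  have := solution_of_subgroup A₀ l₀ (h A₀ l₀ hexp hgen)
  rwa [hmap] at this

/-- the chain from the weakest form. -/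
theorem result_of_cruxGen (h : CruxGen.{u}) (A : Type u) [Group A]
    (w : Claims.C0283.Kervaire.WordGroup A) (hw : Claims.C0283.Kervaire.Unimodular w) :
    Function.Injective (Claims.C0283.Kervaire.coefficientMap w) :=
  result_of_crux (crux_of_gen h) A w hw

end Claimed.Agent.R158
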